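import Vale.Agent.P216.H962.KV

/-!
# The collapse of the boundary of the cube off a small part of its top face (P216, block B43)

`collapse m`: a homotopy `D : ∂J^{m+1} × [0,1] → ∂J^{m+1}` from the identity to a map which is
constant off the small middle part of the face `y_last = 1`.
-/

open Set

namespace Vale.Agent.P216.H923B

open Vale.Agent.P216.H962

/-- Centred coordinates. -/
def cc {n : ℕ} (y : Fin n → ℝ) : Fin n → ℝ := fun i => 2 * y i - 1

/-- The inverse of `cc`. -/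
noncomputable def uu {n : ℕ} (x : Fin n → ℝ) : Fin n → ℝ := fun i => (x i + 1) / 2

theorem uu_cc {n : ℕ} (y : Fin n → ℝ) : uu (cc y) = y := by
  funext i
  simp only [uu, cc]
  ring

theorem cc_uu {n : ℕ} (x : Fin n → ℝ) : cc (uu x) = x := by
  funext i
  simp only [uu, cc]
  ring

theorem continuous_cc {n : ℕ} : Continuous (cc : (Fin n → ℝ) → Fin n → ℝ) := by
  unfold cc
  fun_prop

theorem continuous_uu {n : ℕ} : Continuous (uu : (Fin n → ℝ) → Fin n → ℝ) := by
  unfold uu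
  fun_prop

theorem norm_cc_of_mem {m : ℕ} {y : Fin (m + 1) → ℝ} (hy : y ∈ bJ (m + 1)) : ‖cc y‖ = 1 := by
  obtain ⟨hJ, i, hi⟩ := hy
  apply le_antisymm
  · rw [pi_norm_le_iff_of_nonneg zero_le_one]
    intro j
    have := hJ j
    rw [Real.norm_eq_abs, abs_le]
    simp only [cc]
    constructor <;> linarith [this.1, this.2]
  · have h1 : ‖cc y i‖ = 1 := by
      rw [Real.norm_eq_abs]
      simp only [cc]
      rcases hi with hi | hi
      · rw [hi]; norm_num
      · rw [hi]; norm_num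
    rw [← h1]
    exact norm_le_pi_norm _ i

theorem uu_mem_of_norm {m : ℕ} {x : Fin (m + 1) → ℝ} (hx : ‖x‖ = 1) : uu x ∈ bJ (m + 1) := by
  constructor
  · intro j
    have h1 : ‖x j‖ ≤ 1 := hx ▸ norm_le_pi_norm x j
    rw [Real.norm_eq_abs, abs_le] at h1
    simp only [uu]
    constructor <;> linarith [h1.1, h1.2]
  · by_contra hcon
    push Not at hcon
    have h2 : ‖x‖ < 1 := by
      rw [pi_norm_lt_iff one_pos]
      intro j
      have h1 : ‖x j‖ ≤ 1 := hx ▸ norm_le_pi_norm x j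
      have h3 := hcon j
      simp only [uu] at h3
      rw [Real.norm_eq_abs] at h1 ⊢
      rcases lt_or_eq_of_le h1 with h4 | h4
      · exact h4
      · exfalso
        rcases (abs_eq zero_le_one).1 h4 with h5 | h5
        · exact h3.2 (by rw [h5]; norm_num)
        · exact h3.1 (by rw [h5]; norm_num)
    linarith

/-- The last basis vector. -/
noncomputable def el (m : ℕ) : Fin (m + 1) → ℝ := Pi.single (Fin.last m) 1

theorem norm_el (m : ℕ) : ‖el m‖ = 1 := by
  rw [el, Pi.norm_single]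
  simp

/-- The cutoff. -/
noncomputable def psi {m : ℕ} (x : Fin (m + 1) → ℝ) : ℝ := min 1 (4 * ‖x - el m‖)

theorem psi_nonneg {m : ℕ} (x : Fin (m + 1) → ℝ) : 0 ≤ psi x :=
  le_min zero_le_one (by positivity)

theorem psi_le {m : ℕ} (x : Fin (m + 1) → ℝ) : psi x ≤ 1 := min_le_left _ _

theorem continuous_psi {m : ℕ} : Continuous (psi : (Fin (m + 1) → ℝ) → ℝ) := by
  unfold psi
  fun_prop

/-- The raw homotopy. -/
noncomputable def rw0 {m : ℕ} (s : ℝ) (x : Fin (m + 1) → ℝ) : Fin (m + 1) → ℝ :=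
  (1 - s * psi x) • x - (s * psi x) • el m

theorem rw0_ne {m : ℕ} {s : ℝ} (hs : s ∈ Icc (0 : ℝ) 1) {x : Fin (m + 1) → ℝ} (hx : ‖x‖ = 1) :
    rw0 s x ≠ 0 := by
  intro h
  have h0 : (1 - s * psi x) • x = (s * psi x) • el m := sub_eq_zero.1 h
  have hp : 0 ≤ s * psi x := mul_nonneg hs.1 (psi_nonneg x)
  have hq : s * psi x ≤ 1 := mul_le_one₀ hs.2 (psi_nonneg x) (psi_le x)
  have h1 : 1 - s * psi x = s * psi x := by
    have h2 := congrArg norm h0
    rw [norm_smul, norm_smul, hx, norm_el, mul_one, mul_one, Real.norm_eq_abs, Real.norm_eq_abs,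
      abs_of_nonneg (by linarith), abs_of_nonneg hp] at h2
    exact h2
  rw [h1] at h0
  have h3 : s * psi x ≠ 0 := by
    intro h4
    rw [h4] at h1
    norm_num at h1
  have h5 : x = el m := smul_right_injective _ h3 h0
  apply h3
  rw [h5, psi, sub_self, norm_zero, mul_zero, min_eq_right zero_le_one, mul_zero]

theorem continuous_rw0 {m : ℕ} :
    Continuous fun p : ℝ × (Fin (m + 1) → ℝ) => rw0 p.1 p.2 := by
  unfold rw0
  have := (continuous_psi (m := m)).comp (continuous_snd (X := ℝ))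
  simp only [Function.comp_def] at this
  fun_prop

/-- The normalisation. -/
noncomputable def nz {n : ℕ} (x : Fin n → ℝ) : Fin n → ℝ := ‖x‖⁻¹ • x

theorem norm_nz {n : ℕ} {x : Fin n → ℝ} (h : x ≠ 0) : ‖nz x‖ = 1 := by
  rw [nz, norm_smul, norm_inv, norm_norm, inv_mul_cancel₀ (norm_ne_zero_iff.2 h)]

theorem nz_of_norm {n : ℕ} {x : Fin n → ℝ} (h : ‖x‖ = 1) : nz x = x := by
  rw [nz, h, inv_one, one_smul]

theorem continuousOn_nz {n : ℕ} : ContinuousOn (nz : (Fin n → ℝ) → Fin n → ℝ) {x | x ≠ 0} := by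
  unfold nz
  exact (continuous_norm.continuousOn.inv₀ fun x hx => norm_ne_zero_iff.2 hx).smul
    continuousOn_id

theorem psi_cc_eq_one {m : ℕ} {y : Fin (m + 1) → ℝ} (hy : y ∈ bJ (m + 1))
    (h : y (Fin.last m) ≠ 1 ∨ ∃ i : Fin m, 1 / 8 ≤ |y i.castSucc - 1 / 2|) : psi (cc y) = 1 := by
  have key : ∀ i : Fin (m + 1), 1 / 4 ≤ |cc y i - el m i| → psi (cc y) = 1 := by
    intro i hi
    rw [psi, min_eq_left]
    have := norm_le_pi_norm (cc y - el m) i
    rw [Pi.sub_apply, Real.norm_eq_abs] at this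
    linarith
  have hcs : ∀ i : Fin m, el m i.castSucc = 0 := fun i => by
    rw [el, Pi.single_eq_of_ne (Fin.castSucc_lt_last i).ne]
  have hl : el m (Fin.last m) = 1 := by rw [el, Pi.single_eq_same]
  have h2 : (∃ i : Fin m, 1 / 8 ≤ |y i.castSucc - 1 / 2|) → psi (cc y) = 1 := by
    rintro ⟨i, hi⟩
    refine key i.castSucc ?_
    rw [hcs, sub_zero]
    have : cc y i.castSucc = 2 * (y i.castSucc - 1 / 2) := by simp only [cc]; ring
    rw [this, abs_mul, abs_of_pos (by norm_num : (0 : ℝ) < 2)]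
    linarith
  rcases h with h | h
  · obtain ⟨-, i, hi⟩ := hy
    induction i using Fin.lastCases with
    | last =>
      have h0 : y (Fin.last m) = 0 := hi.resolve_right h
      refine key (Fin.last m) ?_
      rw [hl, cc, h0]
      norm_num
    | cast i =>
      refine h2 ⟨i, ?_⟩
      rcases hi with hi | hi
      · rw [hi]; norm_num
      · rw [hi]; norm_num
  · exact h2 h

/-- **The collapse.** -/
theorem collapse (m : ℕ) :
    ∃ (D : ℝ → (Fin (m + 1) → ℝ) → (Fin (m + 1) → ℝ)) (b : Fin (m + 1) → ℝ), b ∈ bJ (m + 1) ∧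
      ContinuousOn (fun p : ℝ × (Fin (m + 1) → ℝ) => D p.1 p.2) (Icc 0 1 ×ˢ bJ (m + 1)) ∧
      (∀ s ∈ Icc (0 : ℝ) 1, MapsTo (D s) (bJ (m + 1)) (bJ (m + 1))) ∧
      (∀ y ∈ bJ (m + 1), D 0 y = y) ∧
      (∀ y ∈ bJ (m + 1),
        (y (Fin.last m) ≠ 1 ∨ ∃ i : Fin m, 1 / 8 ≤ |y i.castSucc - 1 / 2|) → D 1 y = b) := by
  refine ⟨fun s y => uu (nz (rw0 s (cc y))), uu (-el m),
    uu_mem_of_norm (by rw [norm_neg, norm_el]), ?_, ?_, ?_, ?_⟩
  · refine continuous_uu.comp_continuousOn (continuousOn_nz.comp ?_ ?_)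
    · exact (continuous_rw0.comp
        (continuous_fst.prodMk (continuous_cc.comp continuous_snd))).continuousOn
    · rintro ⟨s, y⟩ ⟨hs, hy⟩
      exact rw0_ne hs (norm_cc_of_mem hy)
  · intro s hs y hy
    exact uu_mem_of_norm (norm_nz (rw0_ne hs (norm_cc_of_mem hy)))
  · intro y hy
    change uu (nz (rw0 0 (cc y))) = y
    rw [rw0, zero_mul, sub_zero, one_smul, zero_smul, sub_zero, nz_of_norm (norm_cc_of_mem hy),
      uu_cc]
  · intro y hy h
    change uu (nz (rw0 1 (cc y))) = uu (-el m)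
    rw [rw0, psi_cc_eq_one hy h, mul_one, sub_self, zero_smul, one_smul, zero_sub,
      nz_of_norm (by rw [norm_neg, norm_el])]

end Vale.Agent.P216.H923B
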